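import Vale.Agent.P237.Petty.Tail.Field
import Vale.Agent.P237.Petty.Centre.Decomp
import Vale.Agent.P237.Petty.Centre.Slope

/-!
# P237: the whole integrand in the units of the circle

For a cliff the natural unit is `cs s ^ m`; the value of the integrand on the diagonal joins the
stationary weight into a constant.
-/

namespace Vale.Agent.P237.Petty.Tail.Cliff

open Centre

/-- The slope free part of the field. -/
noncomputable def fieldC (m : ℕ) (M1 M2 k S g : ℝ) : ℝ :=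
  -(M2 * k ^ 2 * (1 + (m : ℝ)⁻¹)) - M1 * (1 - k ^ 2 * S ^ 2) / g ^ 2 +
    ((m : ℝ) - 2)⁻¹ * M1 * (1 - k * S) * (1 - 3 * k * S) / g ^ 2

/-- The square. -/
noncomputable def gainC (M1 M2 k S g σ : ℝ) : ℝ :=
  (M2 * g ^ 2 - M1 * S ^ 2) * (σ - k * (g + S * σ)) ^ 2 / (g ^ 3 * (g + S * σ))

/-- The coefficient of the derivative of the field. -/
noncomputable def potC (m : ℕ) (M1 M2 k S g : ℝ) : ℝ :=
  2 * (1 - k * S) * ((m : ℝ)⁻¹ * M2 - ((m : ℝ) - 2)⁻¹ * M1 * S ^ 2 / g ^ 2)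

/-- The value on the diagonal with the stationary weight. -/
noncomputable def constC (m : ℕ) (b M1 M2 s : ℝ) : ℝ :=
  -(1 / cs s - coA m M1 s s / cs s ^ 2 - M2 * s ^ 2 * (1 + (m : ℝ)⁻¹) +
      2 * (m : ℝ)⁻¹ * M2 * cs s ^ 2 - 2 * ((m : ℝ) - 2)⁻¹ * M1 * s ^ 2) +
    ((m : ℝ) - 1) / (2 * (m : ℝ) * b ^ 3) * ((cs s - b) ^ 2 * (cs s + 2 * b)) / cs s

/-- The part of the first null that is proportional to the displacement. -/
noncomputable def zC (m : ℕ) (b M1 M2 s S : ℝ) : ℝ :=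
  hd' m M1 M2 s * (S - s) - 2 * (1 - (m : ℝ)⁻¹) * (s / cs s) * ∫ t in s..S, fW m b t

variable {b M1 M2 s S g σ k k' : ℝ}

/-- The field, the square and the integrand. -/
theorem main_eq {m : ℕ} (hm : 6 ≤ m) (hs : s ^ 2 < 1) (hS : S ^ 2 < 1) (hg : 0 < g) :
    Q m b M1 M2 s S (cs s / g) + (fieldDs m M1 M2 k k' s S (cs s / g) -
        fieldDs m M1 M2 s 1 s S (cs s / g)) +
        cs s ^ m / g ^ m * Ident.gain (m - 1) M1 M2 k S g σ =
      cs s ^ m * (1 / g + fieldC m M1 M2 k S g + gainC M1 M2 k S g σ +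
          g ^ m / cs s ^ m * potC m M1 M2 k S g * k') +
        cs s ^ m / g ^ m * (2 * fW m b S * (cs S - g)) := by
  have hc := (cs_pos hs).ne'
  have hcS := (cs_pos hS).ne'
  obtain ⟨j, rfl⟩ : ∃ j, m = j + 6 := ⟨m - 6, by omega⟩
  have hm0 : (j : ℝ) + 6 ≠ 0 := by positivity
  have hm2 : (j : ℝ) + 4 ≠ 0 := by positivity
  have hz : cs s / (cs s / g) = g := by field_simp
  have hW : 2 * W0 (j + 6) b S * (cs s / g) ^ (j + 6) * (1 - cs s / (cs s / g * cs S)) =
      cs s ^ (j + 6) / g ^ (j + 6) * (2 * fW (j + 6) b S * (cs S - g)) := by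
    rw [W0, div_pow]
    have e : 1 - cs s / (cs s / g * cs S) = (cs S - g) / cs S := by field_simp
    rw [e]
    field_simp
  rw [Q, hW]
  simp only [fieldDs, hz, div_pow, Ident.tangentT, Ident.potT, Ident.potK, Ident.gain, fieldC,
    gainC, potC, coA, show j + 6 - 1 = j + 5 from rfl, show j + 6 - 2 = j + 4 from rfl,
    show j + 5 + 1 = j + 6 from rfl, show j + 5 - 1 = j + 4 from rfl,
    show j + 5 - 2 = j + 3 from rfl]
  rw [← cs_sq hs.le]
  simp only [pow_add]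
  generalize hG : g ^ j = GJ
  generalize hC : cs s ^ j = CJ
  have hGJ : GJ ≠ 0 := hG ▸ pow_ne_zero j hg.ne'
  have hCJ : CJ ≠ 0 := hC ▸ pow_ne_zero j hc
  generalize fW (j + 6) b S = FS
  push_cast
  rw [show (j : ℝ) + 6 - 2 = j + 4 by ring, show (j : ℝ) + 5 - 1 = j + 4 by ring,
    show (j : ℝ) + 5 + 1 = j + 6 by ring]
  field_simp
  ring

/-- The value on the diagonal and the stationary weight. -/
theorem const_eq {m : ℕ} (hm : 6 ≤ m) (hs : s ^ 2 < 1) :
    -Q m b M1 M2 s s 1 + 2 * (m : ℝ)⁻¹ * W0 m b s = cs s ^ m * constC m b M1 M2 s := by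
  have hc := (cs_pos hs).ne'
  obtain ⟨j, rfl⟩ : ∃ j, m = j + 6 := ⟨m - 6, by omega⟩
  have hm0 : (j : ℝ) + 6 ≠ 0 := by positivity
  have hm2 : (j : ℝ) + 4 ≠ 0 := by positivity
  have e1 : (1 : ℝ) - cs s / (1 * cs s) = 0 := by rw [one_mul, div_self hc, sub_self]
  rw [Q, e1, mul_zero, add_zero, W0, fW, wPoly, constC]
  rw [show 1 - s * s = 1 - s ^ 2 by ring, ← cs_sq hs.le, show j + 6 - 2 = j + 4 from rfl]
  simp only [one_pow, inv_one, mul_one, pow_add]
  generalize hC : cs s ^ j = CJ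
  push_cast
  rw [show (j : ℝ) + 6 - 2 = j + 4 by ring]
  field_simp
  ring

/-- The whole integrand at `z = cs s / g`. -/
theorem total_eq {m : ℕ} (hm : 6 ≤ m) {b M1 M2 C a A κ η s S g σ : ℝ} (hs : s ^ 2 < 1)
    (hS : S ^ 2 < 1) (hg : 0 < g) :
    total m b M1 M2 C a A 0 κ η s S (cs s / g) σ =
      cs s ^ m * (1 / g + fieldC m M1 M2 (slopeField m M1 M2 η s S g) S g +
          gainC M1 M2 (slopeField m M1 M2 η s S g) S g σ +
          g ^ m / cs s ^ m * potC m M1 M2 (slopeField m M1 M2 η s S g) S g *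
            slopeField' m M1 M2 η s S g (cs s ^ m / g ^ m) σ +
          constC m b M1 M2 s + (m : ℝ)⁻¹ * (cs s ^ m / g ^ m - 1) * (Gd m M1 M2 s / cs s ^ 2)) +
        zC m b M1 M2 s S +
        cs s ^ m / g ^ m * (2 * fW m b S * ((1 - (m : ℝ)⁻¹) * cs s - g)) +
        cs s ^ m / g ^ m * (vObs m κ S * (((1 - S ^ 2) * σ - S * g) ^ 2 - sqp (g - cs S))) +
        (kap' m C s * sat m (S - s) - kap m C s * sat' m (S - s) +
          cs s ^ m / g ^ m * (kap m C s * sat' m (S - s))) +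
        (null2s m a A 0 s S + cs s ^ m / g ^ m * null2S m a A 0 s S) := by
  have hc := (cs_pos hs).ne'
  have h1 := main_eq (b := b) (M1 := M1) (M2 := M2) (σ := σ)
    (k := slopeField m M1 M2 η s S g)
    (k' := slopeField' m M1 M2 η s S g (cs s ^ m / g ^ m) σ) hm hs hS hg
  have h2 := const_eq (b := b) (M1 := M1) (M2 := M2) hm hs
  have hz : cs s / (cs s / g) = g := by field_simp
  have hd0 : hd m M1 M2 s = cs s ^ m * ((m : ℝ)⁻¹ * (Gd m M1 M2 s / cs s ^ 2)) := by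
    rw [hd, show cs s ^ m = cs s ^ (m - 2) * cs s ^ 2 by rw [← pow_add]; congr 1; omega]
    field_simp
  simp only [total, P, slopePart, null0s, null0S, zC, hz, div_pow, W0] at h1 h2 ⊢
  linear_combination h1 + h2 + (cs s ^ m / g ^ m - 1) * hd0

end Vale.Agent.P237.Petty.Tail.Cliff
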