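import Vale.Agent.P237.Petty.Tail.Cliff.Algebra
import Vale.Agent.P237.Petty.Centre.Lip

/-!
# P237: the field on a cliff

Below the surface of the switch the field is `1` and the square pays for the slope free part.
Above it the bracket is nonnegative, so only the circle abscissa can cost, and either the deficit
`1 - g` pays for it or the profile is far above the circle and the potential pays.
-/

namespace Vale.Agent.P237.Petty.Tail.Cliff

open Centre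

variable {m : ℕ} {b M1 M2 s S g σ q k : ℝ}

/-- The sharper sum of the constants and the bounds of `M2`. -/
theorem consts (hc : Cnst m b M1 M2) (hm : 2000 ≤ m) :
    M1 + M2 ≤ 501 / 1000 ∧ 12 / 100 ≤ M2 ∧ M2 ≤ 141 / 1000 := by
  have hm' : (2000 : ℝ) ≤ m := by exact_mod_cast hm
  have hb := hc.b_pos
  have hb1 := hc.b_le_one
  have hb2 : 1999 / 2000 ≤ b ^ 2 := le_trans (by
    rw [le_div_iff₀ (by linarith)]; linarith) hc.b_lo
  have hb3 : 1999 / 2000 * (1999 / 2000) ≤ b ^ 3 := by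
    have : (1999 : ℝ) / 2000 ≤ b := le_trans hb2 (by nlinarith)
    calc (1999 : ℝ) / 2000 * (1999 / 2000) ≤ b ^ 2 * b := mul_le_mul hb2 this (by norm_num) (by positivity)
      _ = b ^ 3 := by ring
  have hb31 : b ^ 3 ≤ 1 := pow_le_one₀ hb.le hb1
  have hup : M1 + M2 ≤ 501 / 1000 := by
    rw [hc.sum_eq, div_le_iff₀ (by positivity)]
    nlinarith
  have hlo : 497 / 1000 ≤ M1 + M2 := by
    rw [hc.sum_eq, le_div_iff₀ (by positivity)]
    nlinarith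
  exact ⟨hup, by linarith [hc.M1_hi], by linarith [hc.M1_lo]⟩

theorem inv_two_le (hm : 2000 ≤ m) :
    0 ≤ ((m : ℝ) - 2)⁻¹ ∧ ((m : ℝ) - 2)⁻¹ ≤ 101 / 100 * (m : ℝ)⁻¹ := by
  have hm' : (2000 : ℝ) ≤ m := by exact_mod_cast hm
  refine ⟨inv_nonneg.2 (by linarith), ?_⟩
  rw [← div_eq_mul_inv, inv_le_comm₀ (by linarith) (by positivity), inv_div,
    div_le_iff₀ (by norm_num)]
  linarith

/-- The slope free part up to `O(1/m)`. -/
theorem fieldC_ge (hc : Cnst m b M1 M2) (hm : 2000 ≤ m) (hk0 : 0 ≤ k) (hk : k ≤ 1) (hS0 : 0 ≤ S)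
    (hS : S ≤ 1) (hg : 99 / 100 ≤ g) :
    -(k ^ 2 * ((M2 * g ^ 2 - M1 * S ^ 2) / g ^ 2)) - 2 * (m : ℝ)⁻¹ ≤
      fieldC m M1 M2 k S g + M1 / g ^ 2 := by
  obtain ⟨-, hM2, hM2'⟩ := consts hc hm
  obtain ⟨hu0, hu⟩ := inv_two_le hm
  have he : 0 ≤ (m : ℝ)⁻¹ := by positivity
  have hg0 : 0 < g := by linarith
  have e : fieldC m M1 M2 k S g + M1 / g ^ 2 = -(k ^ 2 * ((M2 * g ^ 2 - M1 * S ^ 2) / g ^ 2)) -
      M2 * k ^ 2 * (m : ℝ)⁻¹ +
        ((m : ℝ) - 2)⁻¹ * (M1 / g ^ 2 * ((1 - k * S) * (1 - 3 * k * S))) := by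
    rw [fieldC]
    field_simp
    ring
  rw [e]
  have h1 : M2 * k ^ 2 * (m : ℝ)⁻¹ ≤ 1 * 1 * (m : ℝ)⁻¹ :=
    mul_le_mul_of_nonneg_right (mul_le_mul (by linarith) (pow_le_one₀ hk0 hk) (sq_nonneg k)
      zero_le_one) he
  have hM : M1 / g ^ 2 ≤ 385 / 1000 := by
    rw [div_le_iff₀ (by positivity)]
    have : (99 / 100 : ℝ) ^ 2 ≤ g ^ 2 := pow_le_pow_left₀ (by norm_num) hg 2
    linarith [hc.M1_hi]
  have hM0 : 0 ≤ M1 / g ^ 2 := div_nonneg (by linarith [hc.M1_lo]) (sq_nonneg g)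
  have hkS : 0 ≤ k * S ∧ k * S ≤ 1 := ⟨mul_nonneg hk0 hS0, mul_le_one₀ hk hS0 hS⟩
  have hp : -(2 : ℝ) ≤ (1 - k * S) * (1 - 3 * k * S) := by
    nlinarith [sq_nonneg (3 * (k * S) - 2)]
  have h2 : -(385 / 1000 * 2) ≤ M1 / g ^ 2 * ((1 - k * S) * (1 - 3 * k * S)) := by
    have := mul_le_mul_of_nonneg_left hp hM0
    have := mul_le_mul_of_nonneg_right hM (show (0 : ℝ) ≤ 2 by norm_num)
    linarith
  have h3 := mul_le_mul_of_nonneg_left h2 hu0
  have h4 := mul_le_mul_of_nonneg_right hu (show (0 : ℝ) ≤ 385 / 1000 * 2 by norm_num)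
  linarith

/-- The potential coefficient through the bracket of the surface. -/
theorem potC_eq (hm : 3 ≤ m) (hg : g ≠ 0) :
    potC m M1 M2 k S g = 2 * (m : ℝ)⁻¹ * (1 - k * S) *
      ((M2 * g ^ 2 - (m : ℝ) / ((m : ℝ) - 2) * M1 * S ^ 2) / g ^ 2) := by
  have : (3 : ℝ) ≤ m := by exact_mod_cast hm
  have : (m : ℝ) - 2 ≠ 0 := by linarith
  have : (m : ℝ) ≠ 0 := by linarith
  rw [potC]
  field_simp

/-- A profile well above the circle: the quadratic growth of the potential. -/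
theorem above_circle (hm : 2000 ≤ m) (hs0 : 0 ≤ s) (hs : s ≤ 1 / 2) (hg : 1 - 2 / 5 * s ^ 2 ≤ g) :
    (m : ℝ) * s ^ 2 ≤ 55 + 199 / 100 * (g ^ m / cs s ^ m) := by
  have hm' : (2000 : ℝ) ≤ m := by exact_mod_cast hm
  have hx : 0 ≤ s ^ 2 := sq_nonneg s
  have hx1 : s ^ 2 ≤ 1 / 4 := by nlinarith
  have hcp : 0 < cs s := cs_pos (by linarith)
  have hcle : cs s ≤ 1 - s ^ 2 / 2 := by
    rw [cs, Real.sqrt_le_left (by linarith)]
    nlinarith
  have h1 : 1 + s ^ 2 / 10 ≤ g / cs s := by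
    rw [le_div_iff₀ hcp]
    have := mul_le_mul_of_nonneg_left hcle (show 0 ≤ 1 + s ^ 2 / 10 by linarith)
    nlinarith [sq_nonneg (s ^ 2)]
  set k := m / 2 with hk
  have hk2 : 4995 / 10000 * (m : ℝ) ≤ k := by
    have h2 : m ≤ 2 * k + 1 := by omega
    have : (m : ℝ) ≤ 2 * k + 1 := by exact_mod_cast h2
    linarith
  have h2 : (1 + (k : ℝ) * (s ^ 2 / 10)) ^ 2 ≤ g ^ m / cs s ^ m := by
    rw [← div_pow]
    calc (1 + (k : ℝ) * (s ^ 2 / 10)) ^ 2 ≤ ((1 + s ^ 2 / 10) ^ k) ^ 2 :=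
          pow_le_pow_left₀ (by positivity) (one_add_mul_le_pow (by linarith) k) 2
      _ = (1 + s ^ 2 / 10) ^ (k * 2) := by rw [← pow_mul]
      _ ≤ (1 + s ^ 2 / 10) ^ m := pow_le_pow_right₀ (by linarith) (by omega)
      _ ≤ _ := pow_le_pow_left₀ (by positivity) h1 m
  have h3 : 4995 / 100000 * ((m : ℝ) * s ^ 2) ≤ (k : ℝ) * (s ^ 2 / 10) := by
    have := mul_le_mul_of_nonneg_right hk2 hx
    linarith
  have hy : 0 ≤ (m : ℝ) * s ^ 2 := by positivity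
  have h4 : (1 + 4995 / 100000 * ((m : ℝ) * s ^ 2)) ^ 2 ≤ g ^ m / cs s ^ m :=
    le_trans (pow_le_pow_left₀ (by positivity) (by linarith) 2) h2
  nlinarith [sq_nonneg ((m : ℝ) * s ^ 2 - 81)]

/-- The two brackets differ by `O(1/m)`. -/
theorem bracket_gap (hc : Cnst m b M1 M2) (hm : 2000 ≤ m) (hS0 : 0 ≤ S) (hS : S ≤ 1) :
    0 ≤ M2 * g ^ 2 - M1 * S ^ 2 - (M2 * g ^ 2 - (m : ℝ) / ((m : ℝ) - 2) * M1 * S ^ 2) ∧
      M2 * g ^ 2 - M1 * S ^ 2 - (M2 * g ^ 2 - (m : ℝ) / ((m : ℝ) - 2) * M1 * S ^ 2) ≤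
        (m : ℝ)⁻¹ := by
  obtain ⟨hu0, hu⟩ := inv_two_le hm
  have hm' : (2000 : ℝ) ≤ m := by exact_mod_cast hm
  have hM1 : 0 ≤ M1 := by linarith [hc.M1_lo]
  have e : M2 * g ^ 2 - M1 * S ^ 2 - (M2 * g ^ 2 - (m : ℝ) / ((m : ℝ) - 2) * M1 * S ^ 2) =
      2 * (((m : ℝ) - 2)⁻¹ * (M1 * S ^ 2)) := by
    field_simp [show (m : ℝ) - 2 ≠ 0 by linarith]
    ring
  rw [e]
  refine ⟨by positivity, ?_⟩
  have : ((m : ℝ) - 2)⁻¹ * (M1 * S ^ 2) ≤ 101 / 100 * (m : ℝ)⁻¹ * (377 / 1000 * 1) :=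
    mul_le_mul hu (mul_le_mul hc.M1_hi (pow_le_one₀ hS0 hS) (sq_nonneg S) (by norm_num))
      (by positivity) (by positivity)
  have : 0 < (m : ℝ)⁻¹ := by positivity
  linarith

theorem over_sq_le (hg : 99 / 100 ≤ g) {x e : ℝ} (he : 0 ≤ e) (hx : x ≤ e) :
    x / g ^ 2 ≤ 11 / 10 * e := by
  have hgg : 98 / 100 ≤ g ^ 2 := le_trans (by norm_num) (pow_le_pow_left₀ (by norm_num) hg 2)
  rw [div_le_iff₀ (by positivity)]
  have := mul_le_mul_of_nonneg_left hgg (show 0 ≤ 11 / 10 * e by positivity)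
  linarith

theorem surf_sq (hm : 3 ≤ m) (hM1 : 0 ≤ M1) (hM2 : 0 < M2) :
    M2 * (vSurf m M1 M2 * S) ^ 2 = (m : ℝ) / ((m : ℝ) - 2) * M1 * S ^ 2 := by
  have hm' : (3 : ℝ) ≤ m := by exact_mod_cast hm
  rw [mul_pow, vSurf, Real.sq_sqrt (div_nonneg (mul_nonneg (div_nonneg (by linarith)
    (by linarith)) hM1) hM2.le)]
  field_simp

/-- Below the surface the field is `1`. -/
theorem below_ge (hc : Cnst m b M1 M2) (hm : 2000 ≤ m) (hS : 0 ≤ S) (hS1 : S ≤ 1)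
    (hg : 99 / 100 ≤ g) (hσ : 0 ≤ σ) (hedge : σ * (1 - S) ≤ g)
    (hv : g ≤ vSurf m M1 M2 * S) :
    -(4 * (m : ℝ)⁻¹) ≤ fieldC m M1 M2 1 S g + M1 / g ^ 2 + gainC M1 M2 1 S g σ := by
  obtain ⟨-, hM2, -⟩ := consts hc hm
  have hM1 : 0 ≤ M1 := by linarith [hc.M1_lo]
  have hg0 : 0 < g := by linarith
  have he : 0 ≤ (m : ℝ)⁻¹ := by positivity
  have hD : g ≤ g + S * σ := by linarith [mul_nonneg hS hσ]
  have hf := fieldC_ge hc hm zero_le_one le_rfl hS hS1 hg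
  have hgap := (bracket_gap (g := g) hc hm hS hS1).2
  have hB' := mul_le_mul_of_nonneg_left (pow_le_pow_left₀ hg0.le hv 2) (by linarith : (0 : ℝ) ≤ M2)
  rw [surf_sq (by omega) hM1 (by linarith)] at hB'
  set B := M2 * g ^ 2 - M1 * S ^ 2 with hB
  set F := (σ - 1 * (g + S * σ)) ^ 2 / (g * (g + S * σ)) with hF
  have hgain : gainC M1 M2 1 S g σ = B / g ^ 2 * F := by
    rw [gainC, hF, ← hB, div_mul_div_comm]
    congr 1
    ring
  have hF0 : 0 ≤ F := div_nonneg (sq_nonneg _) (mul_nonneg hg0.le (by linarith))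
  have hF1 : F ≤ 1 := by
    rw [hF, div_le_one (mul_pos hg0 (by linarith))]
    have h3 : (σ - 1 * (g + S * σ)) ^ 2 ≤ g ^ 2 := by
      refine sq_le_sq' ?_ ?_ <;> linarith [mul_nonneg hσ (sub_nonneg.2 hS1)]
    have h4 := mul_le_mul_of_nonneg_left hD hg0.le
    rw [sq g] at h3
    linarith
  have hBg : B / g ^ 2 ≤ 11 / 10 * (m : ℝ)⁻¹ := over_sq_le hg he (by linarith)
  have h3 : B / g ^ 2 * (1 - F) ≤ 11 / 10 * (m : ℝ)⁻¹ * 1 := by
    rcases le_total (B / g ^ 2) 0 with h | h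
    · exact le_trans (mul_nonpos_of_nonpos_of_nonneg h (by linarith)) (by positivity)
    · exact mul_le_mul hBg (by linarith) (by linarith) (by positivity)
  rw [hgain]
  linarith

/-- On the ramp the bracket is small. -/
theorem ramp_ge (hc : Cnst m b M1 M2) (hm : 2000 ≤ m) (hk0 : 0 ≤ k) (hk : k ≤ 1) (hS : 0 ≤ S)
    (hS1 : S ≤ 1) (hg : 99 / 100 ≤ g) (hg1 : g ≤ 1) (hv : vSurf m M1 M2 * S ≤ g)
    (hy : (m : ℝ) * (g - vSurf m M1 M2 * S) ≤ 1 / 8) :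
    -(5 * (m : ℝ)⁻¹) ≤ fieldC m M1 M2 k S g + M1 / g ^ 2 := by
  obtain ⟨-, hM2, hM2'⟩ := consts hc hm
  have hm0 : (0 : ℝ) < m := by exact_mod_cast (show 0 < m by omega)
  have hM1 : 0 ≤ M1 := by linarith [hc.M1_lo]
  have he : 0 ≤ (m : ℝ)⁻¹ := by positivity
  have hf := fieldC_ge hc hm hk0 hk hS hS1 hg
  have hgap := (bracket_gap (g := g) hc hm hS hS1).2
  have hv0 : 0 ≤ vSurf m M1 M2 * S := mul_nonneg (Real.sqrt_nonneg _) hS
  have h2 : g - vSurf m M1 M2 * S ≤ (m : ℝ)⁻¹ / 8 := by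
    rw [show (m : ℝ)⁻¹ / 8 = 1 / 8 / m by ring, le_div_iff₀ hm0]
    linarith
  have h3 : M2 * g ^ 2 - (m : ℝ) / ((m : ℝ) - 2) * M1 * S ^ 2 ≤ (m : ℝ)⁻¹ := by
    rw [← surf_sq (by omega) hM1 (by linarith : 0 < M2)]
    have h4 : (g - vSurf m M1 M2 * S) * (g + vSurf m M1 M2 * S) ≤ (m : ℝ)⁻¹ / 8 * 2 :=
      mul_le_mul h2 (by linarith) (by linarith) (by positivity)
    have h5 := mul_le_mul_of_nonneg_left h4 (by linarith : (0 : ℝ) ≤ M2)
    have h6 := mul_le_mul_of_nonneg_right hM2' (show 0 ≤ (m : ℝ)⁻¹ / 8 * 2 by positivity)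
    linarith
  have h4 : k ^ 2 * ((M2 * g ^ 2 - M1 * S ^ 2) / g ^ 2) ≤ 1 * (11 / 10 * (2 * (m : ℝ)⁻¹)) := by
    have h5 : 0 ≤ M2 * g ^ 2 - M1 * S ^ 2 := by
      linarith [bracket_nonneg (by omega : 3 ≤ m) hM1 (by linarith : 0 < M2) hS hv,
        (bracket_gap (g := g) hc hm hS hS1).1]
    exact mul_le_mul (pow_le_one₀ hk0 hk) (over_sq_le hg (by positivity) (by linarith))
      (by positivity) zero_le_one
  linarith

/-- At the circle abscissa. -/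
theorem circle_ge (hc : Cnst m b M1 M2) (hm : 2000 ≤ m) (hs0 : 0 ≤ s) (hs : s ≤ 1 / 2000)
    (hS : 9 / 20 ≤ S) (hS1 : S ≤ 1) (hg : 99 / 100 ≤ g) (hg1 : g ≤ 1)
    (hv : vSurf m M1 M2 * S ≤ g) :
    -(7 / 40 * (1 - g)) - 7 * (m : ℝ)⁻¹ ≤
      fieldC m M1 M2 s S g + M1 / g ^ 2 + g ^ m / cs s ^ m * potC m M1 M2 s S g := by
  obtain ⟨-, hM2, hM2'⟩ := consts hc hm
  have hm' : (2000 : ℝ) ≤ m := by exact_mod_cast hm
  have he : 0 < (m : ℝ)⁻¹ := by positivity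
  have hM1 : 0 ≤ M1 := by linarith [hc.M1_lo]
  have hg0 : 0 < g := by linarith
  have hS0 : 0 ≤ S := by linarith
  have hf := fieldC_ge hc hm hs0 (by linarith) hS0 hS1 hg
  obtain ⟨hgap0, hgap1⟩ := bracket_gap (g := g) hc hm hS0 hS1
  have hB'0 := sub_nonneg.2 (bracket_nonneg (by omega : 3 ≤ m) hM1 (by linarith : 0 < M2) hS0 hv)
  rw [potC_eq (by omega) hg0.ne']
  have hr : 0 ≤ g ^ m / cs s ^ m := by
    have : 0 ≤ cs s := Real.sqrt_nonneg _
    positivity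
  set B := M2 * g ^ 2 - M1 * S ^ 2 with hB
  set B' := M2 * g ^ 2 - (m : ℝ) / ((m : ℝ) - 2) * M1 * S ^ 2
  set r := g ^ m / cs s ^ m with hr_def
  have hBg : B / g ^ 2 ≤ 69 / 1000 := by
    rw [div_le_iff₀ (by positivity), hB]
    have hS2' : (9 / 20 : ℝ) ^ 2 ≤ S ^ 2 := pow_le_pow_left₀ (by norm_num) hS 2
    have a1 := mul_le_mul hc.M1_lo hS2' (by norm_num) hM1
    have a2 := mul_le_mul_of_nonneg_right hM2' (sq_nonneg g)
    have a3 : g ^ 2 ≤ 1 := pow_le_one₀ hg0.le hg1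
    linarith
  have hsS : s * S ≤ 1 / 2000 * 1 := mul_le_mul hs hS1 hS0 (by norm_num)
  have hB'g0 : 0 ≤ B' / g ^ 2 := div_nonneg hB'0 (sq_nonneg g)
  rcases le_total (s ^ 2) (5 / 2 * (1 - g)) with hh | hh
  · have h3 : s ^ 2 * (B / g ^ 2) ≤ 5 / 2 * (1 - g) * (69 / 1000) :=
      mul_le_mul hh hBg (div_nonneg (by linarith) (sq_nonneg g)) (by linarith)
    have h4 : 0 ≤ r * (2 * (m : ℝ)⁻¹ * (1 - s * S) * (B' / g ^ 2)) :=
      mul_nonneg hr (mul_nonneg (mul_nonneg (by positivity) (by linarith)) hB'g0)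
    linarith
  have hab := above_circle (g := g) hm hs0 (by linarith) (by linarith)
  have h3 : s ^ 2 ≤ (m : ℝ)⁻¹ * (55 + r * (2 * (1 - s * S))) := by
    have h4 : 199 / 100 * r ≤ r * (2 * (1 - s * S)) := by
      rw [mul_comm _ r]; exact mul_le_mul_of_nonneg_left (by linarith) hr
    have h5 := mul_le_mul_of_nonneg_left (show (m : ℝ) * s ^ 2 ≤ 55 + r * (2 * (1 - s * S)) by
      linarith) he.le
    rwa [← mul_assoc, inv_mul_cancel₀ (by linarith : (m : ℝ) ≠ 0), one_mul] at h5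
  have hB'g : B' / g ^ 2 ≤ 69 / 1000 :=
    le_trans (div_le_div_of_nonneg_right (by linarith) (sq_nonneg g)) hBg
  have h6 := mul_le_mul_of_nonneg_right h3 hB'g0
  have h7 : s ^ 2 * ((B - B') / g ^ 2) ≤ 1 / 1000 * (11 / 10 * (m : ℝ)⁻¹) :=
    mul_le_mul (le_trans (pow_le_of_le_one hs0 (by linarith) two_ne_zero) (by linarith))
      (over_sq_le hg he.le hgap1) (div_nonneg hgap0 (sq_nonneg g)) (by norm_num)
  have h8 := mul_le_mul_of_nonneg_left hB'g (show 0 ≤ 55 * (m : ℝ)⁻¹ by positivity)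
  have h9 : s ^ 2 * (B / g ^ 2) = s ^ 2 * (B' / g ^ 2) + s ^ 2 * ((B - B') / g ^ 2) := by ring
  linarith

/-- The field, the square and the potential on a cliff. -/
theorem field_part_ge (hc : Cnst m b M1 M2) (hm : 2000 ≤ m) (hs0 : 0 ≤ s) (hs : s ≤ 1 / 2000)
    (hS : 9 / 20 ≤ S) (hS1 : S ≤ 1) (hg : 99 / 100 ≤ g) (hg1 : g ≤ 1) (hσ : 0 ≤ σ)
    (hedge : σ * (1 - S) ≤ g) (hq : 0 ≤ q) :
    -(7 / 40 * (1 - g)) - 8 * (m : ℝ)⁻¹ ≤
      fieldC m M1 M2 (cliffField m M1 M2 s S g) S g + M1 / g ^ 2 +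
        gainC M1 M2 (cliffField m M1 M2 s S g) S g σ +
        g ^ m / cs s ^ m * potC m M1 M2 (cliffField m M1 M2 s S g) S g *
          cliffField' m M1 M2 s S g q σ := by
  obtain ⟨-, hM2, -⟩ := consts hc hm
  have hm0 : (0 : ℝ) < m := by exact_mod_cast (show 0 < m by omega)
  have he : 0 ≤ (m : ℝ)⁻¹ := by positivity
  have hM1 : 0 ≤ M1 := by linarith [hc.M1_lo]
  have hg0 : 0 < g := by linarith
  have hS0 : 0 ≤ S := by linarith
  rcases le_total 1 (cliffArg m M1 M2 S g) with hx | hx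
  · obtain ⟨h1, h2⟩ := step_of_one_le hx
    have hk' : cliffField m M1 M2 s S g = 1 := by rw [cliffField, h1]; ring
    have hd : cliffField' m M1 M2 s S g q σ = 0 := by rw [cliffField', h1, h2]; ring
    have hv : g ≤ vSurf m M1 M2 * S := by
      have : 0 ≤ (m : ℝ) * (vSurf m M1 M2 * S - g) := by rw [cliffArg] at hx; linarith
      linarith [nonneg_of_mul_nonneg_right this hm0]
    rw [hk', hd, mul_zero, add_zero]
    have := below_ge hc hm hS0 hS1 hg hσ hedge hv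
    linarith
  have hv : vSurf m M1 M2 * S ≤ g := by
    have : (m : ℝ) * (vSurf m M1 M2 * S - g) ≤ 0 := by rw [cliffArg] at hx; linarith
    linarith [nonpos_of_mul_nonpos_right this hm0]
  obtain ⟨hk0, hk1⟩ := cliffField_mem (m := m) (M1 := M1) (M2 := M2) (S := S) (g := g)
    (show s ≤ 1 by linarith)
  have hB0 := bracket_nonneg (by omega : 3 ≤ m) hM1 (by linarith : 0 < M2) hS0 hv
  have hD : 0 < g + S * σ := by linarith [mul_nonneg hS0 hσ]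
  have hgain : ∀ k, 0 ≤ gainC M1 M2 k S g σ := fun k => by
    have : 0 ≤ M2 * g ^ 2 - M1 * S ^ 2 := by linarith [(bracket_gap (g := g) hc hm hS0 hS1).1]
    rw [gainC]
    positivity
  rcases le_total (7 / 8) (cliffArg m M1 M2 S g) with hy | hy
  · have hr : 0 ≤ g ^ m / cs s ^ m := by
      have : 0 ≤ cs s := Real.sqrt_nonneg _
      positivity
    have hp : 0 ≤ potC m M1 M2 (cliffField m M1 M2 s S g) S g := by
      rw [potC_eq (by omega) hg0.ne']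
      have := sub_nonneg.2 (mul_le_one₀ hk1 hS0 hS1)
      have := sub_nonneg.2 hB0
      positivity
    have hd : 0 ≤ cliffField' m M1 M2 s S g q σ := by
      obtain ⟨a0, a1⟩ := step_mem (cliffArg m M1 M2 S g)
      have := (step'_bounds (cliffArg m M1 M2 S g)).1
      have : 0 ≤ vSurf m M1 M2 := Real.sqrt_nonneg _
      have := sub_nonneg.2 (show s ≤ 1 by linarith)
      have := sub_nonneg.2 a1
      unfold cliffField'
      positivity
    have := ramp_ge hc hm (le_trans hs0 hk0) hk1 hS0 hS1 hg hg1 hv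
      (by rw [cliffArg] at hy; linarith)
    have := hgain (cliffField m M1 M2 s S g)
    have := mul_nonneg (mul_nonneg hr hp) hd
    linarith
  obtain ⟨h1, h2⟩ := step_of_le hy
  have hk' : cliffField m M1 M2 s S g = s := by rw [cliffField, h1]; ring
  have hd : cliffField' m M1 M2 s S g q σ = 1 := by rw [cliffField', h1, h2]; ring
  rw [hk', hd, mul_one]
  have := circle_ge hc hm hs0 hs hS hS1 hg hg1 hv
  have := hgain s
  linarith

end Vale.Agent.P237.Petty.Tail.Cliff
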