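import Vale.Agent.P237.Petty.Tail.Cliff.Field
import Vale.Agent.P237.Petty.Tail.NearP
import Vale.Agent.P237.Petty.Centre.Main
import Mathlib.Analysis.SpecificLimits.Normed

/-!
# P237: the constant and the null functions on a cliff

The constant is `M1 - 1` up to `O(1/m)`, the first null is nonnegative up to `O(1/m)` because the
primitive of the stationary weight is cubic, and everything supported at the profile is tiny.
-/

namespace Vale.Agent.P237.Petty.Tail.Cliff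

open Centre Real Set

variable {m : ℕ} {b M1 M2 C a A κ s S g σ q x : ℝ}

theorem cube_b_ge (hc : Cnst m b M1 M2) : 1 - 2 * (m : ℝ)⁻¹ ≤ b ^ 3 := by
  have hm := hc.m_ge
  have h := hc.one_sub_b_sq
  have hb := hc.b_pos
  have hb1 := hc.b_le_one
  have h2 : b ^ 2 ≤ b := by nlinarith
  have h3 : b ^ 2 * b ^ 2 ≤ b ^ 3 := by
    calc b ^ 2 * b ^ 2 ≤ b ^ 2 * b := mul_le_mul_of_nonneg_left h2 (sq_nonneg b)
      _ = b ^ 3 := by ring
  nlinarith [sq_nonneg (1 - b ^ 2)]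

/-- The constant. -/
theorem constC_ge (hc : Cnst m b M1 M2) (hm : 2000 ≤ m) (hs0 : 0 ≤ s) (hs : s ≤ 1 / 2000) :
    M1 - 1 - 8 * (m : ℝ)⁻¹ ≤ constC m b M1 M2 s := by
  obtain ⟨-, hM2, hM2'⟩ := consts hc hm
  obtain ⟨hu0, hu⟩ := inv_two_le hm
  have hm' : (2000 : ℝ) ≤ m := by exact_mod_cast hm
  set e := (m : ℝ)⁻¹ with he_def
  have he : 0 < e := by positivity
  have hb := hc.b_pos
  have hb1 := hc.b_le_one
  have hb3 := cube_b_ge hc
  have hM1 : 0 ≤ M1 := by linarith [hc.M1_lo]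
  have hs2 : s ^ 2 < 1 := by nlinarith
  have hcp := cs_pos hs2
  have hc2 := cs_sq hs2.le
  set K := ((m : ℝ) - 1) / (2 * (m : ℝ) * b ^ 3) with hK
  set u := ((m : ℝ) - 2)⁻¹
  have e2 : 2 * K * b ^ 3 = 1 - e := by
    rw [hK, he_def]; field_simp
  have e1 : constC m b M1 M2 s = -(e / cs s) + (2 * M1 + M2 - 3 * K * b ^ 2) +
      cs s ^ 2 * (K - (M1 + M2)) + (-(M1 * u * (1 - 3 * s ^ 2)) + M2 * s ^ 2 * e -
        2 * e * M2 * cs s ^ 2 + 2 * u * M1 * s ^ 2) := by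
    have hA : coA m M1 s s / cs s ^ 2 = M1 * (1 + s ^ 2) - M1 * u * (1 - 3 * s ^ 2) := by
      rw [div_eq_iff (by positivity), hc2, coA]
      ring
    have hB : K * ((cs s - b) ^ 2 * (cs s + 2 * b)) / cs s =
        K * cs s ^ 2 - 3 * K * b ^ 2 + (1 - e) / cs s := by
      rw [← e2]
      field_simp
      ring
    rw [constC, ← hK, hA, hB, ← he_def, hc2]
    ring
  have h1 : 0 ≤ K - (M1 + M2) := by
    rw [hc.sum_eq, hK, sub_nonneg, div_le_div_iff₀ (by positivity) (by positivity)]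
    have : 0 ≤ ((m : ℝ) - 1) * b ^ 3 := mul_nonneg (by linarith) (by positivity)
    linarith
  have h2 : 3 * K * b ^ 2 - (M1 + M2) ≤ 1 + 2 * e := by
    have eq1 : 3 * K * b ^ 2 - (M1 + M2) =
        (1 - e) * (3 * b ^ 2 - (m : ℝ) / ((m : ℝ) + 3)) / (2 * b ^ 3) := by
      rw [hc.sum_eq, hK, he_def]
      field_simp
    rw [eq1, div_le_iff₀ (by positivity)]
    have h3 : 1 - 3 * e ≤ (m : ℝ) / ((m : ℝ) + 3) := by
      rw [le_div_iff₀ (by linarith)]
      have : e * (m : ℝ) = 1 := inv_mul_cancel₀ (by linarith)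
      linarith
    have h4 : 0 ≤ 3 * b ^ 2 - (m : ℝ) / ((m : ℝ) + 3) := by
      have : (m : ℝ) / ((m : ℝ) + 3) ≤ 1 := by rw [div_le_one (by linarith)]; linarith
      nlinarith [hc.b_ge]
    have h5 : (1 - e) * (3 * b ^ 2 - (m : ℝ) / ((m : ℝ) + 3)) ≤ 1 * (3 * b ^ 2 - 1 + 3 * e) :=
      mul_le_mul (by linarith) (by linarith) h4 zero_le_one
    have h6 : 3 * b ^ 2 - 1 ≤ 2 * b ^ 3 := by nlinarith [mul_nonneg (sq_nonneg (b - 1)) hb.le]
    have h7 : 4 / 5 ≤ b ^ 3 := by nlinarith [hc.b_ge, mul_nonneg hb.le (sq_nonneg b)]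
    have h8 := mul_le_mul_of_nonneg_left h7 (show 0 ≤ 4 * e by positivity)
    linarith
  have h3 : e / cs s ≤ 2 * e := by
    rw [div_le_iff₀ hcp]
    have : 1 / 2 ≤ cs s := by
      rw [show cs s = √(1 - s ^ 2) from rfl, le_sqrt (by norm_num) (by linarith)]
      nlinarith
    have := mul_le_mul_of_nonneg_left this (show 0 ≤ 2 * e by positivity)
    linarith
  have h4 : M1 * u * (1 - 3 * s ^ 2) ≤ 377 / 1000 * (101 / 100 * e) * 1 :=
    mul_le_mul (mul_le_mul hc.M1_hi hu hu0 (by norm_num)) (by linarith [sq_nonneg s])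
      (by nlinarith) (by positivity)
  have h5 : 2 * e * M2 * cs s ^ 2 ≤ 2 * e * (141 / 1000) * 1 :=
    mul_le_mul (mul_le_mul_of_nonneg_left hM2' (by positivity)) (by linarith [sq_nonneg s])
      (sq_nonneg _) (by positivity)
  have h6 : 0 ≤ M2 * s ^ 2 * e + 2 * u * M1 * s ^ 2 := by
    have : 0 ≤ M2 := by linarith
    positivity
  rw [e1]
  linarith [mul_nonneg (sq_nonneg (cs s)) h1]

/-- `Gd` is negative of the order of `s²`. -/
theorem Gd_le_neg (hc : Cnst m b M1 M2) (hm : 2000 ≤ m) (hs0 : 0 ≤ s) (hs : s ≤ 1 / 2000) :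
    Gd m M1 M2 s ≤ -(7 / 10) * s ^ 2 + 3 * (m : ℝ)⁻¹ := by
  obtain ⟨-, hM2, -⟩ := consts hc hm
  obtain ⟨hu0, -⟩ := inv_two_le hm
  have hm' : (2000 : ℝ) ≤ m := by exact_mod_cast hm
  have hs2 : s ^ 2 ≤ 1 / 4000000 := by nlinarith
  have hc2 := cs_sq (show s ^ 2 ≤ 1 by linarith)
  have hc0 : 0 ≤ cs s := sqrt_nonneg _
  have hc1 : cs s ≤ 1 := sqrt_le_one.2 (by linarith [sq_nonneg s])
  have hb3 := cube_b_ge hc
  set e := (m : ℝ)⁻¹ with he_def
  have he : 0 < e := by positivity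
  have hsum : 2 * (M1 + M2) ≤ 1 + 3 * e := by
    rw [hc.sum_eq, ← mul_div_assoc, div_le_iff₀ (by have := hc.b_pos; positivity)]
    have h1 := mul_le_mul_of_nonneg_left hb3
      (show 0 ≤ (1 + 3 * e) * (2 * ((m : ℝ) + 3)) by positivity)
    have : e * e * (m : ℝ) = e := by rw [mul_assoc, inv_mul_cancel₀ (by linarith), mul_one]
    have : e * (m : ℝ) = 1 := inv_mul_cancel₀ (by linarith)
    have : e ≤ 1 / 2000 := by rw [he_def, inv_le_comm₀ (by linarith) (by norm_num)]; linarith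
    nlinarith
  have h1 : cs s ^ 2 - cs s ≤ -(999 / 1000) * (s ^ 2 / 2) := by
    have a1 : s ^ 2 / 2 ≤ 1 - cs s := by nlinarith
    have a2 : 999 / 1000 ≤ cs s := by nlinarith
    have := mul_le_mul a2 a1 (by positivity) hc0
    linarith
  have h2 : 0 ≤ 2 * M1 * cs s ^ 2 * (((m : ℝ) - 2)⁻¹ * (1 - 3 * s ^ 2)) :=
    mul_nonneg (mul_nonneg (by linarith [hc.M1_lo]) (sq_nonneg _)) (mul_nonneg hu0 (by linarith))
  have h3 : 2 * (M1 + M2) * cs s ^ 2 ≤ cs s ^ 2 + 3 * e := by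
    have := mul_le_mul_of_nonneg_right hsum (sq_nonneg (cs s))
    have := mul_le_mul_of_nonneg_left (show cs s ^ 2 ≤ 1 by linarith [sq_nonneg s])
      (show 0 ≤ 3 * e by positivity)
    linarith
  have h4 : 23 / 100 * s ^ 2 ≤ 2 * M2 * cs s ^ 2 * s ^ 2 := by
    refine mul_le_mul_of_nonneg_right ?_ (sq_nonneg s)
    have := mul_le_mul hM2 (show 999 / 1000 ≤ cs s ^ 2 by linarith) (by norm_num) (by linarith)
    linarith
  rw [Gd, ← hc2]
  have e1 : cs s ^ 2 * cs s ^ 2 = cs s ^ 2 - cs s ^ 2 * s ^ 2 := by rw [hc2]; ring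
  have e2 : 2 * M1 * cs s ^ 2 * (1 - ((m : ℝ) - 2)⁻¹ * (1 - 3 * s ^ 2)) + 2 * M2 * (cs s ^ 2) ^ 2 =
      2 * (M1 + M2) * cs s ^ 2 - 2 * M1 * cs s ^ 2 * (((m : ℝ) - 2)⁻¹ * (1 - 3 * s ^ 2)) -
        2 * M2 * cs s ^ 2 * s ^ 2 := by
    linear_combination 2 * M2 * e1
  rw [e2]
  linarith [sq_nonneg s]

/-- The primitive which dominates the stationary weight. -/
noncomputable def prim (m : ℕ) (x : ℝ) : ℝ :=
  cs x ^ m * (16 * (x ^ 3 - (√(m : ℝ))⁻¹ ^ 2 * x + 4 * (√(m : ℝ))⁻¹ ^ 3))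

theorem prim_nonneg (hx : 0 ≤ x) : 0 ≤ prim m x := by
  set u := (√(m : ℝ))⁻¹ with hu
  have hu0 : 0 ≤ u := inv_nonneg.2 (sqrt_nonneg _)
  refine mul_nonneg (pow_nonneg (sqrt_nonneg _) _) (mul_nonneg (by norm_num) ?_)
  rw [← hu]
  rcases le_total x u with h | h
  · have := mul_le_mul_of_nonneg_left h (sq_nonneg u)
    have : 0 ≤ x ^ 3 := by positivity
    have : 0 ≤ u ^ 3 := by positivity
    linarith
  · have := mul_le_mul_of_nonneg_right (pow_le_pow_left₀ hu0 h 2) hx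
    have : 0 ≤ u ^ 3 := by positivity
    linarith

theorem poly_pos {y : ℝ} (hy : 0 ≤ y) :
    0 ≤ 9 / 10 * y ^ 4 - 4001 / 1000 * y ^ 2 + 4 * y + 9 / 10 := by
  nlinarith [sq_nonneg (y - 7 / 5), sq_nonneg (y ^ 2 - 2), mul_nonneg hy (sq_nonneg (y - 7 / 5)),
    sq_nonneg (y ^ 2 - 7 / 5 * y), sq_nonneg (y ^ 2 + y - 3)]

/-- The stationary weight integrates to a cubic. -/
theorem integral_fW_le (hc : Cnst m b M1 M2) (hm : 2000 ≤ m) (hs : 0 ≤ s) (hsS : s ≤ S)
    (hS : S ≤ 1) : ∫ t in s..S, fW m b t ≤ prim m s := by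
  obtain ⟨j, hmj⟩ : ∃ j, m = j + 2 := ⟨m - 2, by omega⟩
  have hm' : (2000 : ℝ) ≤ m := by exact_mod_cast hm
  set u := (√(m : ℝ))⁻¹ with hu
  have hu0 : 0 < u := by positivity
  have hu2 : u ^ 2 = (m : ℝ)⁻¹ := by rw [hu, inv_pow, sq_sqrt (by linarith)]
  have humul : u ^ 2 * (m : ℝ) = 1 := by rw [hu2]; exact inv_mul_cancel₀ (by linarith)
  set d := fun x : ℝ => cs x ^ j * (16 * ((m : ℝ) * x * (x ^ 3 - u ^ 2 * x + 4 * u ^ 3) -
    (1 - x ^ 2) * (3 * x ^ 2 - u ^ 2))) with hd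
  have hcont : Continuous cs := cs_continuous
  have hder : ∀ x ∈ Ioo s S, HasDerivAt (fun y => -prim m y) (d x) x := by
    intro x hx
    have hx1 : x ^ 2 < 1 := by nlinarith [hx.1, hx.2]
    subst hmj
    have h1 := hasDerivAt_cs_pow hx1 j
    have h2 := (((hasDerivAt_pow 3 x).sub ((hasDerivAt_id x).const_mul (u ^ 2))).add_const
      (4 * u ^ 3)).const_mul 16
    refine ((h1.mul h2).neg.congr_of_eventuallyEq (Filter.Eventually.of_forall fun y => ?_)
      ).congr_deriv ?_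
    · simp [prim, hu]
    · simp only [hd, id_eq, Pi.mul_apply, Pi.sub_apply]
      rw [show cs x ^ (j + 2) = cs x ^ j * (1 - x ^ 2) by rw [pow_add, cs_sq hx1.le]]
      push_cast
      ring
  have hdc : Continuous d := by simp only [hd]; fun_prop
  have hpc : Continuous fun y => -prim m y := by simp only [prim]; fun_prop
  have hint := intervalIntegral.integral_eq_sub_of_hasDerivAt_of_le hsS hpc.continuousOn hder
    (hdc.intervalIntegrable _ _)
  have hle : ∫ t in s..S, fW m b t ≤ ∫ t in s..S, d t := by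
    refine intervalIntegral.integral_mono_on hsS (fW_continuous.intervalIntegrable _ _)
      (hdc.intervalIntegrable _ _) fun x hx => ?_
    have hx0 : 0 ≤ x := hs.trans hx.1
    have hx1 : x ^ 2 ≤ 1 := pow_le_one₀ hx0 (hx.2.trans hS)
    have hc0 : 0 ≤ cs x := sqrt_nonneg _
    have hc1 : cs x ≤ 1 := sqrt_le_one.2 (by linarith [sq_nonneg x])
    have hb := hc.b_pos
    have hb1 := hc.b_le_one
    have hb3 : 999 / 1000 ≤ b ^ 3 := by
      have := cube_b_ge hc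
      have : (m : ℝ)⁻¹ ≤ 1 / 2000 := by rw [inv_le_comm₀ (by linarith) (by norm_num)]; linarith
      linarith
    have hA : ((m : ℝ) - 1) / (4 * b ^ 3) * (cs x + 2 * b) ≤ 4 / 5 * m := by
      rw [div_mul_eq_mul_div, div_le_iff₀ (by positivity)]
      have a1 : ((m : ℝ) - 1) * (cs x + 2 * b) ≤ (m : ℝ) * 3 :=
        mul_le_mul (by linarith) (by linarith) (by linarith) (by linarith)
      have a2 := mul_le_mul_of_nonneg_left hb3 (show 0 ≤ 16 / 5 * (m : ℝ) by positivity)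
      linarith
    have hB : (cs x - b) ^ 2 ≤ 2 * x ^ 4 + 2 * u ^ 4 := by
      have a1 : 1 - cs x ≤ x ^ 2 := by nlinarith [cs_sq hx1]
      have a2 : 1 - b ≤ u ^ 2 := by nlinarith [hc.one_sub_b_sq]
      have a3 := pow_le_pow_left₀ (sub_nonneg.2 hc1) a1 2
      have a4 := pow_le_pow_left₀ (sub_nonneg.2 hb1) a2 2
      nlinarith [sq_nonneg ((1 - cs x) + (1 - b))]
    have hf : fW m b x ≤ cs x ^ j * (4 / 5 * m * (2 * x ^ 4 + 2 * u ^ 4)) := by
      have e : fW m b x = cs x ^ j *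
          (((m : ℝ) - 1) / (4 * b ^ 3) * (cs x + 2 * b) * (cs x - b) ^ 2) := by
        rw [fW, wPoly, show m - 2 = j by omega]; ring
      rw [e]
      exact mul_le_mul_of_nonneg_left (mul_le_mul hA hB (sq_nonneg _) (by positivity))
        (pow_nonneg hc0 _)
    refine hf.trans (mul_le_mul_of_nonneg_left ?_ (pow_nonneg hc0 _))
    set y := x / u with hy
    have hxy : x = y * u := by rw [hy]; field_simp
    have hy0 : 0 ≤ y := by positivity
    have e1 : (m : ℝ) * x * (x ^ 3 - u ^ 2 * x + 4 * u ^ 3) = u ^ 2 * (y ^ 4 - y ^ 2 + 4 * y) := by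
      rw [hxy]
      linear_combination (u ^ 2 * (y ^ 4 - y ^ 2 + 4 * y)) * humul
    have e2 : 4 / 5 * (m : ℝ) * (2 * x ^ 4 + 2 * u ^ 4) = u ^ 2 * (8 / 5 * (y ^ 4 + 1)) := by
      rw [hxy]
      linear_combination (u ^ 2 * (8 / 5 * (y ^ 4 + 1))) * humul
    have e3 : (1 - x ^ 2) * (3 * x ^ 2 - u ^ 2) ≤ u ^ 2 * (3 * y ^ 2 - 1 + u ^ 2 * y ^ 2) := by
      rw [hxy]
      have : 0 ≤ u ^ 4 * y ^ 4 := by positivity
      linarith
    have hu3 : u ^ 2 ≤ 1 / 2000 := by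
      rw [hu2, inv_le_comm₀ (by linarith) (by norm_num)]; linarith
    have h7 := mul_le_mul_of_nonneg_right hu3 (sq_nonneg y)
    have h8 : 8 / 5 * (y ^ 4 + 1) ≤
        16 * (y ^ 4 - y ^ 2 + 4 * y - (3 * y ^ 2 - 1 + u ^ 2 * y ^ 2)) := by
      linarith [poly_pos hy0, sq_nonneg y]
    have h9 := mul_le_mul_of_nonneg_left h8 (sq_nonneg u)
    rw [e2]
    linarith
  have := prim_nonneg (m := m) (hs.trans hsS)
  linarith

/-- The first null function is nonnegative up to `O(1/m)`. -/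
theorem zC_ge (hc : Cnst m b M1 M2) (hm : 2000 ≤ m) (hs0 : 0 ≤ s) (hs : s ≤ 1 / 2000)
    (hS : 9 / 20 ≤ S) (hS1 : S ≤ 1) : -(cs s ^ m * (12 * (m : ℝ)⁻¹)) ≤ zC m b M1 M2 s S := by
  obtain ⟨-, hM2, hM2'⟩ := consts hc hm
  obtain ⟨hu0, hu⟩ := inv_two_le hm
  have hm' : (2000 : ℝ) ≤ m := by exact_mod_cast hm
  set e := (m : ℝ)⁻¹ with he_def
  have he : 0 < e := by positivity
  have he1 : e ≤ 1 / 2000 := by rw [he_def, inv_le_comm₀ (by linarith) (by norm_num)]; linarith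
  have hs2 : s ^ 2 ≤ 1 / 4000000 := by nlinarith
  have hc0 : 0 ≤ cs s := sqrt_nonneg _
  have hc2 := cs_sq (show s ^ 2 ≤ 1 by linarith)
  have hc1 : cs s ≤ 1 := sqrt_le_one.2 (by linarith [sq_nonneg s])
  have hclo : 999 / 1000 ≤ cs s := by nlinarith
  set X := 2 * M1 * (-2 * s * (1 - ((m : ℝ) - 2)⁻¹ * (1 - 3 * s ^ 2)) +
      (1 - s ^ 2) * (6 * ((m : ℝ) - 2)⁻¹ * s)) + 2 * M2 * (-4 * s * (1 - s ^ 2)) + s / cs s
  have hX : -1 ≤ X := by
    have hM1 : 0 ≤ M1 := by linarith [hc.M1_lo]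
    have a1 : 0 ≤ 2 * M1 * (2 * s * (((m : ℝ) - 2)⁻¹ * (1 - 3 * s ^ 2))) :=
      mul_nonneg (by linarith) (mul_nonneg (by linarith) (mul_nonneg hu0 (by linarith)))
    have a2 : 0 ≤ 2 * M1 * ((1 - s ^ 2) * (6 * ((m : ℝ) - 2)⁻¹ * s)) :=
      mul_nonneg (by linarith) (mul_nonneg (by linarith) (by positivity))
    have a3 : 2 * M1 * (2 * s) ≤ 2 * (377 / 1000) * (2 * (1 / 2000)) :=
      mul_le_mul (by linarith [hc.M1_hi]) (by linarith) (by linarith) (by norm_num)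
    have a4 : 2 * M2 * (4 * s * (1 - s ^ 2)) ≤ 2 * (141 / 1000) * (4 * (1 / 2000) * 1) :=
      mul_le_mul (by linarith) (mul_le_mul (by linarith) (by linarith [sq_nonneg s]) (by linarith)
        (by norm_num)) (mul_nonneg (by linarith) (by linarith)) (by norm_num)
    have a5 : 0 ≤ s / cs s := div_nonneg hs0 hc0
    simp only [X]
    linarith
  have hG := Gd_le_neg hc hm hs0 hs
  have hbr : 6 / 10 * s ^ 3 - 3 * e ≤ -(1 - 2 * e) * s * Gd m M1 M2 s + e * (cs s ^ 2 * X) := by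
    have a1 := mul_le_mul_of_nonneg_left hG (show 0 ≤ (1 - 2 * e) * s from
      mul_nonneg (by linarith) hs0)
    have a2 : 999 / 1000 * (7 / 10 * s ^ 3) ≤ (1 - 2 * e) * (7 / 10 * s ^ 3) :=
      mul_le_mul_of_nonneg_right (by linarith) (by positivity)
    have a3 : (1 - 2 * e) * s * (3 * e) ≤ 1 * (1 / 2000) * (3 * e) :=
      mul_le_mul_of_nonneg_right (mul_le_mul (by linarith) hs hs0 zero_le_one) (by positivity)
    have a4 : -1 ≤ cs s ^ 2 * X := by nlinarith [sq_nonneg s]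
    have a5 := mul_le_mul_of_nonneg_left a4 he.le
    have a6 : 0 ≤ s ^ 3 := by positivity
    linarith
  have hd : hd' m M1 M2 s = cs s ^ (m - 4) *
      (-(1 - 2 * e) * s * Gd m M1 M2 s + e * (cs s ^ 2 * X)) := by
    have : e * (m : ℝ) = 1 := inv_mul_cancel₀ (by linarith)
    rw [hd', ← he_def, hc2]
    simp only [X]
    linear_combination -(cs s ^ (m - 4) * s * Gd m M1 M2 s) * this
  have hp4 : cs s ^ m = cs s ^ (m - 4) * cs s ^ 4 := by rw [← pow_add]; congr 1; omega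
  have hp : 0 ≤ cs s ^ (m - 4) := pow_nonneg hc0 _
  have hc4 : 99 / 100 ≤ cs s ^ 4 := le_trans (by norm_num) (pow_le_pow_left₀ (by norm_num) hclo 4)
  have hI : 2 * (1 - e) * (s / cs s) * (∫ t in s..S, fW m b t) ≤
      cs s ^ (m - 4) * (1 / 50 * s ^ 3 + e) := by
    set w := (√(m : ℝ))⁻¹
    have hw0 : 0 ≤ w := inv_nonneg.2 (sqrt_nonneg _)
    have hw2 : w ^ 2 = e := by rw [inv_pow, sq_sqrt (by linarith)]
    have hw1 : w ≤ 1 := inv_le_one_of_one_le₀ (one_le_sqrt.2 (by linarith))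
    have a1 : 2 * (1 - e) * (s / cs s) ≤ 201 / 100 * s := by
      have : s / cs s ≤ 1002 / 1000 * s := by
        rw [div_le_iff₀ (by linarith)]
        have := mul_le_mul_of_nonneg_left hclo (show 0 ≤ 1002 / 1000 * s by positivity)
        linarith
      exact (mul_le_mul (show 2 * (1 - e) ≤ 2 by linarith) this (div_nonneg hs0 hc0)
        zero_le_two).trans (by linarith)
    have a2 := integral_fW_le hc hm hs0 (show s ≤ S by linarith) hS1
    have a3 : prim m s ≤ cs s ^ (m - 4) * (16 * (s ^ 3 + 4 * w ^ 3)) := by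
      rw [prim, hp4]
      refine mul_le_mul ?_ ?_ ?_ hp
      · exact mul_le_of_le_one_right hp (pow_le_one₀ hc0 hc1)
      · have : 0 ≤ w ^ 2 * s := by positivity
        linarith
      · by_contra h
        rw [not_le] at h
        have h1 := prim_nonneg (m := m) hs0
        rw [prim] at h1
        linarith [mul_neg_of_pos_of_neg (pow_pos (show 0 < cs s by linarith) m) h]
    have a4 : 0 ≤ ∫ t in s..S, fW m b t :=
      intervalIntegral.integral_nonneg (by linarith) fun t _ => fW_nonneg (by omega) hc.b_pos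
    refine (mul_le_mul a1 (a2.trans a3) a4 (by positivity)).trans ?_
    have a5 : 201 / 100 * s * (16 * (s ^ 3 + 4 * w ^ 3)) ≤ 1 / 50 * s ^ 3 + e := by
      have b1 := mul_le_mul_of_nonneg_right hs (show (0 : ℝ) ≤ 33 * s ^ 3 by positivity)
      have b2 : s * w ^ 3 ≤ 1 / 2000 * e := by
        refine mul_le_mul hs ?_ (by positivity) (by norm_num)
        rw [← hw2]
        exact pow_le_pow_of_le_one hw0 hw1 (by norm_num)
      have : 0 ≤ s ^ 3 := by positivity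
      linarith
    calc 201 / 100 * s * (cs s ^ (m - 4) * (16 * (s ^ 3 + 4 * w ^ 3)))
        = cs s ^ (m - 4) * (201 / 100 * s * (16 * (s ^ 3 + 4 * w ^ 3))) := by ring
      _ ≤ _ := mul_le_mul_of_nonneg_left a5 hp
  have hd1 : cs s ^ (m - 4) * (26 / 100 * s ^ 3 - 3 * e) ≤ hd' m M1 M2 s * (S - s) := by
    rw [hd, mul_assoc]
    refine mul_le_mul_of_nonneg_left ?_ hp
    have a1 := mul_le_mul_of_nonneg_right hbr (show 0 ≤ S - s by linarith)
    have a2 := mul_le_mul_of_nonneg_left (show 449 / 1000 ≤ S - s by linarith)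
      (show 0 ≤ 6 / 10 * s ^ 3 by positivity)
    have a3 := mul_le_mul_of_nonneg_left (show S - s ≤ 1 by linarith) (show 0 ≤ 3 * e by positivity)
    have : 0 ≤ s ^ 3 := by positivity
    linarith
  have hfin : cs s ^ (m - 4) * (-4 * e) ≥ -(cs s ^ m * (12 * e)) := by
    rw [hp4]
    have := mul_le_mul_of_nonneg_left hc4 (show 0 ≤ 12 * (cs s ^ (m - 4) * e) by positivity)
    have : 0 ≤ cs s ^ (m - 4) * e := by positivity
    linarith
  have : 0 ≤ cs s ^ (m - 4) * s ^ 3 := by positivity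
  rw [zC, ← he_def]
  linarith

/-- The linear term of the Jacobian. -/
theorem Gd_term_ge (hc : Cnst m b M1 M2) (hm : 10 ^ 8 ≤ m) (hs0 : 0 ≤ s) (hs : s ≤ 1 / 2000)
    (hg : 0 < g) (hq : cs s ^ m / g ^ m ≤ 7 * ((m : ℝ) * s + √(m : ℝ))) (hg1 : g ≤ 1) :
    -(1 / 40 * (1 - g)) - 4 * (m : ℝ)⁻¹ ≤
      (m : ℝ)⁻¹ * (cs s ^ m / g ^ m - 1) * (Gd m M1 M2 s / cs s ^ 2) := by
  obtain ⟨-, hM2, -⟩ := consts hc (le_trans (by norm_num) hm)
  have hm' : (10 : ℝ) ^ 8 ≤ m := by exact_mod_cast hm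
  set e := (m : ℝ)⁻¹ with he_def
  have he : 0 < e := by positivity
  have hs2 : s ^ 2 ≤ 1 / 4000000 := by nlinarith
  have hcp := cs_pos (show s ^ 2 < 1 by linarith)
  have hc2 := cs_sq (show s ^ 2 ≤ 1 by linarith)
  have hq0 : 0 ≤ cs s ^ m / g ^ m := by positivity
  set q := cs s ^ m / g ^ m with hq_def
  rcases le_total q 1 with h | h
  · have h1 := (abs_le.1 (abs_Gd_le hc (by linarith) (show s ^ 2 ≤ 1 by linarith))).2
    have h2 : Gd m M1 M2 s / cs s ^ 2 ≤ 4 := by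
      rw [div_le_iff₀ (by positivity), hc2]
      have : cs s ≤ 1 := sqrt_le_one.2 (by linarith [sq_nonneg s])
      linarith
    have h3 : (1 - q) * (Gd m M1 M2 s / cs s ^ 2) ≤ 1 * 4 := by
      rcases le_total (Gd m M1 M2 s / cs s ^ 2) 0 with hh | hh
      · linarith [mul_nonpos_of_nonneg_of_nonpos (sub_nonneg.2 h) hh]
      · exact mul_le_mul (by linarith) h2 hh zero_le_one
    have := mul_le_mul_of_nonneg_left h3 he.le
    linarith
  · have hgc : g ≤ cs s := by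
      by_contra hgt
      rw [not_le] at hgt
      have : q < 1 := by
        rw [hq_def, div_lt_one (pow_pos hg m)]
        exact pow_lt_pow_left₀ hgt hcp.le (by omega)
      linarith
    have hh : s ^ 2 / 2 ≤ 1 - g := by nlinarith
    set w := (√(m : ℝ))⁻¹ with hw
    have hw0 : 0 ≤ w := inv_nonneg.2 (sqrt_nonneg _)
    have hw1 : w ≤ 1 / 10000 := by
      rw [hw, inv_le_comm₀ (sqrt_pos.2 (by linarith)) (by norm_num),
        le_sqrt (by norm_num) (by linarith)]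
      linarith
    have heq : e * q ≤ 7 * (s + w) := by
      refine (mul_le_mul_of_nonneg_left hq he.le).trans (le_of_eq ?_)
      have h2 : e * √(m : ℝ) = w := by
        rw [he_def, hw, ← div_eq_inv_mul, sqrt_div_self]
      have h3 : e * (m : ℝ) = 1 := inv_mul_cancel₀ (by linarith)
      linear_combination 7 * h2 + 7 * s * h3
    have hG : -(Gd m M1 M2 s / cs s ^ 2) ≤ 101 / 100 * (6 * e + 2 * s ^ 2) := by
      rw [← neg_div, div_le_iff₀ (by positivity), hc2]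
      have h1 := neg_Gd_le hc (show s ^ 2 ≤ 1 / 4 by linarith)
      rw [← he_def] at h1
      have := mul_le_mul_of_nonneg_left (show 999 / 1000 ≤ 1 - s ^ 2 by linarith)
        (show 0 ≤ 101 / 100 * (6 * e + 2 * s ^ 2) by positivity)
      have : 0 ≤ s ^ 2 := sq_nonneg s
      linarith
    have h2 : e * (q - 1) ≤ 7 * (3 / 5000) := by
      have : e * (q - 1) ≤ e * q := by linarith
      linarith
    have h3 := mul_le_mul_of_nonneg_left hG (show 0 ≤ e * (q - 1) from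
      mul_nonneg he.le (by linarith))
    have h4 := mul_le_mul_of_nonneg_right h2
      (show 0 ≤ 101 / 100 * (6 * e + 2 * s ^ 2) by positivity)
    linarith

end Vale.Agent.P237.Petty.Tail.Cliff
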