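import Vale.Agent.P237.Petty.Tail.Cliff.Null
import Vale.Agent.P237.Petty.Tail.Slope

/-!
# P237: the small terms on a cliff
-/

namespace Vale.Agent.P237.Petty.Tail.Cliff

open Centre Real Set Filter Topology

variable {m : ℕ} {b M1 M2 C a A κ s S g σ q : ℝ}

/-- An exponential against a square. -/
theorem exists_decay : ∃ N : ℕ, ∀ m : ℕ, N ≤ m → (m : ℝ) ^ 2 * (91 / 100) ^ m ≤ 1 := by
  have h := tendsto_pow_const_mul_const_pow_of_abs_lt_one 2 (r := (91 / 100 : ℝ))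
    (by rw [abs_lt]; norm_num)
  exact eventually_atTop.1 (h.eventually (ge_mem_nhds (by norm_num : (0 : ℝ) < 1)))

/-- The circle at the profile is exponentially small against the profile. -/
theorem edge_small (hm : 3 ≤ m) (hdec : (m : ℝ) ^ 2 * (91 / 100) ^ m ≤ 1) (hS : 9 / 20 ≤ S)
    (hS1 : S ≤ 1) (hg : 99 / 100 ≤ g) {k : ℕ} (hk : k ≤ 3) :
    (m : ℝ) * cs S ^ (m - k) / g ^ m ≤ 3 / 2 * (m : ℝ)⁻¹ := by
  have hg0 : 0 < g := by linarith
  have hm0 : (0 : ℝ) < m := by exact_mod_cast (show 0 < m by omega)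
  have hS0 : 0 ≤ cs S := sqrt_nonneg _
  have hcS : cs S ≤ 894 / 1000 := by
    rw [show cs S = √(1 - S ^ 2) from rfl, sqrt_le_left (by norm_num)]
    nlinarith
  have h1 : cs S ^ (m - k) * (894 / 1000) ^ k ≤ (894 / 1000 : ℝ) ^ m := by
    calc cs S ^ (m - k) * (894 / 1000) ^ k ≤ (894 / 1000) ^ (m - k) * (894 / 1000) ^ k :=
          mul_le_mul_of_nonneg_right (pow_le_pow_left₀ hS0 hcS _) (by positivity)
      _ = _ := by rw [← pow_add]; congr 1; omega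
  have h2 : (894 / 1000 : ℝ) ^ m ≤ (91 / 100) ^ m * g ^ m := by
    rw [← mul_pow]
    exact pow_le_pow_left₀ (by norm_num) (by linarith) m
  have h3 : (2 / 3 : ℝ) ≤ (894 / 1000) ^ k :=
    le_trans (by norm_num) (pow_le_pow_of_le_one (by norm_num) (by norm_num) hk)
  have h4 : cs S ^ (m - k) / g ^ m ≤ 3 / 2 * (91 / 100) ^ m := by
    rw [div_le_iff₀ (pow_pos hg0 m)]
    have := mul_le_mul_of_nonneg_left h3 (pow_nonneg hS0 (m - k))
    linarith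
  have h5 := mul_le_mul_of_nonneg_left h4 hm0.le
  rw [← mul_div_assoc] at h5
  refine h5.trans ?_
  have h6 : (m : ℝ) * (91 / 100) ^ m ≤ (m : ℝ)⁻¹ := by
    rw [inv_eq_one_div, le_div_iff₀ hm0]
    linarith
  linarith

/-- The stationary weight at the profile. -/
theorem fW_term_ge (hc : Cnst m b M1 M2) (hm : 2000 ≤ m)
    (hdec : (m : ℝ) ^ 2 * (91 / 100) ^ m ≤ 1) (hs0 : 0 ≤ s) (hs : s ≤ 1 / 2000) (hS : 9 / 20 ≤ S)
    (hS1 : S ≤ 1) (hg : 99 / 100 ≤ g) (hg1 : g ≤ 1) :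
    -(cs s ^ m * (6 * (m : ℝ)⁻¹)) ≤
      cs s ^ m / g ^ m * (2 * fW m b S * ((1 - (m : ℝ)⁻¹) * cs s - g)) := by
  have hm' : (2000 : ℝ) ≤ m := by exact_mod_cast hm
  have hg0 : 0 < g := by linarith
  have hb := hc.b_pos
  have hb1 := hc.b_le_one
  have hb3 : 999 / 1000 ≤ b ^ 3 := by
    have := cube_b_ge hc
    have : (m : ℝ)⁻¹ ≤ 1 / 2000 := by rw [inv_le_comm₀ (by linarith) (by norm_num)]; linarith
    linarith
  have hS0 : 0 ≤ cs S := sqrt_nonneg _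
  have hcS1 : cs S ≤ 1 := sqrt_le_one.2 (by nlinarith)
  have h1 : fW m b S ≤ m * cs S ^ (m - 2) := by
    rw [fW, wPoly, div_mul_eq_mul_div, div_le_iff₀ (by positivity)]
    have a1 : (cs S - b) ^ 2 ≤ 1 := by nlinarith [hc.b_ge]
    have a2 : (cs S - b) ^ 2 * (cs S + 2 * b) ≤ 1 * 3 :=
      mul_le_mul a1 (by linarith) (by linarith) zero_le_one
    have a3 := mul_le_mul (show (m : ℝ) - 1 ≤ m by linarith) a2 (by positivity) (by linarith)
    have a4 := mul_le_mul_of_nonneg_left hb3 (show 0 ≤ 4 * (m : ℝ) by linarith)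
    have a5 := mul_le_mul_of_nonneg_left (show ((m : ℝ) - 1) * ((cs S - b) ^ 2 * (cs S + 2 * b)) ≤
      m * (4 * b ^ 3) by linarith) (pow_nonneg hS0 (m - 2))
    linarith
  have hc0 : 0 ≤ cs s := sqrt_nonneg _
  have hc1 : cs s ≤ 1 := sqrt_le_one.2 (by nlinarith)
  have h2 : -1 ≤ (1 - (m : ℝ)⁻¹) * cs s - g := by
    have : (m : ℝ)⁻¹ ≤ 1 := inv_le_one_of_one_le₀ (by linarith)
    nlinarith
  have hf := fW_nonneg (t := S) (show 1 ≤ m by omega) hb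
  have h3 : fW m b S / g ^ m ≤ 3 / 2 * (m : ℝ)⁻¹ :=
    (div_le_div_of_nonneg_right h1 (by positivity)).trans
      (edge_small (by omega) hdec hS hS1 hg (by norm_num))
  have hp : 0 ≤ cs s ^ m := pow_nonneg hc0 m
  have h4 : cs s ^ m / g ^ m * (2 * fW m b S * ((1 - (m : ℝ)⁻¹) * cs s - g)) =
      2 * (cs s ^ m * (fW m b S / g ^ m)) * ((1 - (m : ℝ)⁻¹) * cs s - g) := by ring
  rw [h4]
  have h5 := mul_le_mul_of_nonneg_left h2
    (show 0 ≤ 2 * (cs s ^ m * (fW m b S / g ^ m)) by positivity)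
  have h6 := mul_le_mul_of_nonneg_left h3 hp
  have : 0 ≤ cs s ^ m * (m : ℝ)⁻¹ := by positivity
  linarith

/-- The small quadratic obstacle. -/
theorem vObs_term_ge (hm : 3 ≤ m) (hdec : (m : ℝ) ^ 2 * (91 / 100) ^ m ≤ 1) (hκ : 0 ≤ κ)
    (hκ1 : κ ≤ 1 / 8) (hS : 9 / 20 ≤ S) (hS1 : S ≤ 1) (hg : 99 / 100 ≤ g) (hg1 : g ≤ 1) :
    -(cs s ^ m * (m : ℝ)⁻¹) ≤
      cs s ^ m / g ^ m * (vObs m κ S * (((1 - S ^ 2) * σ - S * g) ^ 2 - sqp (g - cs S))) := by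
  have hg0 : 0 < g := by linarith
  have hp : 0 ≤ cs s ^ m := pow_nonneg (sqrt_nonneg _) m
  have hV0 := vObs_nonneg (show 1 ≤ m by omega) hκ S
  have hV := vObs_le (show 1 ≤ m by omega) hκ S
  have hS0 : 0 ≤ cs S := sqrt_nonneg _
  have hx : sqp (g - cs S) ≤ 1 :=
    (pow_le_pow_left₀ (le_max_right _ _) (max_le (by linarith) zero_le_one) 2).trans_eq (one_pow 2)
  have h1 : vObs m κ S / g ^ m ≤ κ * (3 / 2 * (m : ℝ)⁻¹) := by
    refine (div_le_div_of_nonneg_right hV (by positivity)).trans ?_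
    rw [mul_assoc, mul_div_assoc]
    exact mul_le_mul_of_nonneg_left (edge_small hm hdec hS hS1 hg le_rfl) hκ
  have h2 : cs s ^ m / g ^ m * (vObs m κ S * (((1 - S ^ 2) * σ - S * g) ^ 2 - sqp (g - cs S))) =
      cs s ^ m * (vObs m κ S / g ^ m) * (((1 - S ^ 2) * σ - S * g) ^ 2 - sqp (g - cs S)) := by
    ring
  rw [h2]
  have h3 := mul_le_mul_of_nonneg_left
    (show -1 ≤ ((1 - S ^ 2) * σ - S * g) ^ 2 - sqp (g - cs S) by
      linarith [sq_nonneg ((1 - S ^ 2) * σ - S * g)])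
    (show 0 ≤ cs s ^ m * (vObs m κ S / g ^ m) by positivity)
  have h4 := mul_le_mul_of_nonneg_left h1 hp
  have h5 := mul_le_mul_of_nonneg_right hκ1 (show 0 ≤ cs s ^ m * (3 / 2 * (m : ℝ)⁻¹) by positivity)
  have : 0 ≤ cs s ^ m * (m : ℝ)⁻¹ := by positivity
  linarith

/-- The second null function of the centre. -/
theorem null1_term_ge (hm : 1 ≤ m) (hC : 0 ≤ C) (hs0 : 0 ≤ s) (hs : s ≤ 1 / 2000)
    (hS : 9 / 20 ≤ S) (hq0 : 0 ≤ q) (hq : q ≤ 14 * m) :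
    -(cs s ^ m * (500 * C * (m : ℝ)⁻¹)) ≤
      kap' m C s * sat m (S - s) - kap m C s * sat' m (S - s) + q * (kap m C s * sat' m (S - s)) := by
  have hm' : (1 : ℝ) ≤ m := by exact_mod_cast hm
  have h1 : 0 ≤ kap' m C s * sat m (S - s) :=
    mul_nonneg (kap'_nonneg hC hs0 (by linarith)) (sat_nonneg _)
  have hp : 0 ≤ cs s ^ m := pow_nonneg (sqrt_nonneg _) m
  have hd : 2 / 5 ≤ S - s := by linarith
  have hsat0 : 0 ≤ sat' m (S - s) := by
    rw [sat']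
    exact div_nonneg (by linarith) (sq_nonneg _)
  have hsat : (m : ℝ) ^ 2 * sat' m (S - s) ≤ 32 := by
    rw [sat', ← mul_div_assoc, div_le_iff₀ (by positivity)]
    have a1 := pow_le_pow_left₀ (by norm_num) hd 3
    have a2 : (m : ℝ) ^ 2 * (S - s) ^ 4 ≤ (1 + (m : ℝ) * (S - s) ^ 2) ^ 2 := by
      have : 0 ≤ (m : ℝ) * (S - s) ^ 2 := by positivity
      nlinarith
    have a3 := mul_le_mul_of_nonneg_left a1
      (show 0 ≤ 32 * ((m : ℝ) ^ 2 * (S - s)) by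
        have : 0 ≤ S - s := by linarith
        positivity)
    have : 0 ≤ (m : ℝ) ^ 2 * (S - s) := by
      have : 0 ≤ S - s := by linarith
      positivity
    linarith
  have hkap : kap m C s ≤ 0 := by
    rw [kap, neg_nonpos]
    positivity
  have hkap1 : -kap m C s ≤ C * (m : ℝ)⁻¹ * cs s ^ m := by
    rw [kap, neg_neg]
    have a1 : Real.exp (-(√(m : ℝ) * s)) ≤ 1 := exp_le_one_iff.2 (by
      have : 0 ≤ √(m : ℝ) * s := by positivity
      linarith)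
    have a2 : √(m : ℝ)⁻¹ ≤ 1 := sqrt_le_one.2 (inv_le_one_of_one_le₀ hm')
    calc C * ((m : ℝ)⁻¹ * √(m : ℝ)⁻¹) * (cs s ^ m * Real.exp (-(√(m : ℝ) * s)))
        ≤ C * ((m : ℝ)⁻¹ * 1) * (cs s ^ m * 1) := by gcongr
      _ = _ := by ring
  have h2 : q * (-kap m C s * sat' m (S - s)) ≤
      14 * m * (C * (m : ℝ)⁻¹ * cs s ^ m * sat' m (S - s)) :=
    mul_le_mul hq (mul_le_mul_of_nonneg_right hkap1 hsat0)
      (mul_nonneg (by linarith) hsat0) (by positivity)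
  have h3 : 14 * (m : ℝ) * (C * (m : ℝ)⁻¹ * cs s ^ m * sat' m (S - s)) ≤
      cs s ^ m * (500 * C * (m : ℝ)⁻¹) := by
    have hsm : sat' m (S - s) ≤ 32 * (m : ℝ)⁻¹ := by
      rw [← div_eq_mul_inv, le_div_iff₀ (by linarith)]
      have := mul_le_mul_of_nonneg_right hm' (mul_nonneg (by linarith : (0 : ℝ) ≤ m) hsat0)
      linarith
    have hcm : (m : ℝ) * (m : ℝ)⁻¹ = 1 := mul_inv_cancel₀ (by linarith)
    calc 14 * (m : ℝ) * (C * (m : ℝ)⁻¹ * cs s ^ m * sat' m (S - s))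
        = (m : ℝ) * (m : ℝ)⁻¹ * (14 * C * cs s ^ m) * sat' m (S - s) := by ring
      _ ≤ 1 * (14 * C * cs s ^ m) * (32 * (m : ℝ)⁻¹) := by
          rw [hcm]; exact mul_le_mul_of_nonneg_left hsm (by positivity)
      _ ≤ _ := by
          have : 0 ≤ C * cs s ^ m * (m : ℝ)⁻¹ := by positivity
          linarith
  have h4 : 0 ≤ -kap m C s * sat' m (S - s) := mul_nonneg (by linarith) hsat0
  linarith

/-- The null function of the displacement. -/
theorem null2_term_ge (ha : 1 / 5000 ≤ a) (hA : 0 ≤ A) (hm : 10 ^ 11 ≤ m) (hs0 : 0 ≤ s)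
    (hs : s ≤ 1 / 2000) (hS : 9 / 20 ≤ S) (hS1 : S ≤ 1) (hq0 : 0 ≤ q)
    (hq : 1 / 5000 ≤ s → q ≤ 150000) :
    -(cs s ^ m * (20000 * A * (m : ℝ)⁻¹)) ≤ null2s m a A 0 s S + q * null2S m a A 0 s S := by
  have hm' : (10 : ℝ) ^ 11 ≤ m := by exact_mod_cast hm
  have hs2 : s ^ 2 ≤ 1 / 4000000 := by nlinarith
  have hc0 : 0 ≤ cs s := sqrt_nonneg _
  have hc2 := cs_sq (show s ^ 2 ≤ 1 by linarith)
  rcases le_total s a with h | h
  · rw [null2s, null2S, sqp_of_nonpos (by linarith), sqp'_of_nonpos (by linarith)]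
    have : 0 ≤ cs s ^ m * (20000 * A * (m : ℝ)⁻¹) := by positivity
    linarith
  have hqa := hq (by linarith)
  set X := s - a with hX
  set δ := S - s with hδ
  have hX0 : 0 ≤ X := by linarith
  have hδ0 : 449 / 1000 ≤ δ := by linarith
  have hp5 : cs s ^ (m - 3) = cs s ^ (m - 5) * cs s ^ 2 := by rw [← pow_add]; congr 1; omega
  have hpm : cs s ^ m = cs s ^ (m - 5) * cs s ^ 5 := by rw [← pow_add]; congr 1; omega
  have hp : 0 ≤ cs s ^ (m - 5) := pow_nonneg hc0 _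
  have e : null2s m a A 0 s S + q * null2S m a A 0 s S = A * cs s ^ (m - 5) *
      (((m : ℝ) - 3) * s * (X ^ 2 * δ ^ 2) - cs s ^ 2 * (2 * X * δ ^ 2 - 2 * X ^ 2 * δ) -
        cs s ^ 2 * q * (2 * X ^ 2 * δ)) := by
    rw [null2s, null2S, ← hX, ← hδ, sqp_of_nonneg hX0, show sqp' X = 2 * X by
      rw [sqp', max_eq_left hX0], hp5]
    ring
  rw [e]
  have hc21 : cs s ^ 2 ≤ 1 := by rw [hc2]; linarith [sq_nonneg s]
  have hc20 : 0 ≤ cs s ^ 2 := sq_nonneg _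
  have hkey : -(10000 * (m : ℝ)⁻¹) ≤ ((m : ℝ) - 3) * s * (X ^ 2 * δ ^ 2) -
      cs s ^ 2 * (2 * X * δ ^ 2 - 2 * X ^ 2 * δ) - cs s ^ 2 * q * (2 * X ^ 2 * δ) := by
    have b1 : 1 / 5000 * ((m : ℝ) - 3) * δ - 2 * q ≥ 1 / 2 * (1 / 5000 * (m : ℝ) * δ) := by
      have := mul_le_mul_of_nonneg_left hδ0 (show (0 : ℝ) ≤ 1 / 2 * (1 / 5000 * m) - 3 / 5000 by
        linarith)
      linarith
    have b2 : (1 / 5000 * ((m : ℝ) - 3) * δ - 2 * q) * (X ^ 2 * δ) ≥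
        1 / 2 * (1 / 5000 * (m : ℝ) * δ) * (X ^ 2 * δ) :=
      mul_le_mul_of_nonneg_right b1 (by positivity)
    have b3 : 1 / 5000 * ((m : ℝ) - 3) * (X ^ 2 * δ ^ 2) ≤ ((m : ℝ) - 3) * s * (X ^ 2 * δ ^ 2) := by
      rw [mul_comm (1 / 5000 : ℝ)]
      exact mul_le_mul_of_nonneg_right (mul_le_mul_of_nonneg_left (by linarith) (by linarith))
        (by positivity)
    have b4 : cs s ^ 2 * q * (2 * X ^ 2 * δ) ≤ 1 * q * (2 * X ^ 2 * δ) :=
      mul_le_mul_of_nonneg_right (mul_le_mul_of_nonneg_right hc21 hq0) (by positivity)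
    have b5 : cs s ^ 2 * (2 * X * δ ^ 2) ≤ 1 * (2 * X * δ ^ 2) :=
      mul_le_mul_of_nonneg_right hc21 (by positivity)
    have b6 : 0 ≤ cs s ^ 2 * (2 * X ^ 2 * δ) := by positivity
    have b7 : -(10000 * (m : ℝ)⁻¹) ≤ δ ^ 2 * ((m : ℝ) / 10000 * X ^ 2 - 2 * X) := by
      have h1 : -(10000 * (m : ℝ)⁻¹) ≤ (m : ℝ) / 10000 * X ^ 2 - 2 * X := by
        have e1 : (m : ℝ) / 10000 * X ^ 2 - 2 * X + 10000 * (m : ℝ)⁻¹ =
            (m : ℝ) / 10000 * (X - 10000 * (m : ℝ)⁻¹) ^ 2 := by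
          field_simp
          ring
        have : 0 ≤ (m : ℝ) / 10000 * (X - 10000 * (m : ℝ)⁻¹) ^ 2 := by positivity
        linarith
      have h2 : δ ^ 2 ≤ 1 := pow_le_one₀ (by linarith) (by linarith)
      have : 0 ≤ δ ^ 2 := sq_nonneg δ
      rcases le_total 0 ((m : ℝ) / 10000 * X ^ 2 - 2 * X) with h3 | h3
      · have := mul_nonneg this h3
        have : 0 ≤ (m : ℝ)⁻¹ := by positivity
        linarith
      · have := mul_le_mul_of_nonpos_right h2 h3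
        linarith
    linarith
  have h5 : cs s ^ (m - 5) ≤ 2 * cs s ^ m := by
    have h1 : 1 / 2 ≤ cs s ^ 5 := by
      have : 999 / 1000 ≤ cs s := by nlinarith
      exact le_trans (by norm_num) (pow_le_pow_left₀ (by norm_num) this 5)
    rw [hpm]
    have := mul_le_mul_of_nonneg_left h1 hp
    linarith
  have h6 := mul_le_mul_of_nonneg_left hkey (mul_nonneg hA hp)
  have h7 := mul_le_mul_of_nonneg_left h5 (show 0 ≤ 10000 * A * (m : ℝ)⁻¹ by positivity)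
  linarith

end Vale.Agent.P237.Petty.Tail.Cliff
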